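import Vale.Agent.P254.SP.H351.Lim
import Vale.Agent.P254.H630.EqA
import Vale.Agent.P254.H630.EqLT

/-!
# P254 / P248, block SP, equality case, second half (helper351): `StmtEq`

`stmtEq_of : StmtLim P → StmtStab P → StmtPos → StmtPush → Eq657.StmtEq`.
-/

open MeasureTheory Set Matrix Filter Topology

namespace Vale.Agent.P254.Eq351

open Vale.Agent.P227.M Vale.Agent.P254.S

variable {n : ℕ} {tt : ℝ → ℝ}

theorem covF_posDef {C : Set (Fin n → ℝ)} {c : Fin n → ℝ} {a b : ℝ} (hA : Eq657.Adm C c a b) :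
    (R304.covF (R304.limDens 0 c C)).PosDef :=
  (R304.good_limDens (B := 0) PosSemidef.zero hA.closed hA.int hA.ha hA.dec).covF_posDef

theorem stmtEq_of_limT (hT : TF tt) (hL : Eq630.StmtLimT tt) (hPush : StmtPush) :
    Eq657.StmtEq := by
  intro n C c a b hA hDD
  obtain ⟨V, hV⟩ := Eq630.exists_regApprox hA
  choose c' C' hreg using hV.reg
  have hD : Tendsto (fun k => entV (V k) - 1 / 2 * Real.log (covV (V k)).det - n) atTop (𝓝 0) := by
    rw [← hDD]
    exact hV.dd
  obtain ⟨sub, A, φ, hsub, hdetA, hregW, hBP, O1, ε, hO1, hε, hlim⟩ := hL n V c' C' hreg hD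
  have hεε : ∀ i, ε i * ε i = 1 := fun i => by
    rcases hε i with h | h <;> rw [h] <;> norm_num
  set O : Matrix (Fin n) (Fin n) ℝ := Matrix.diagonal ε * O1 with hOdef
  have hO : O * Oᵀ = 1 := by
    rw [hOdef, transpose_mul, diagonal_transpose, Matrix.mul_assoc, ← Matrix.mul_assoc O1, hO1,
      Matrix.one_mul, diagonal_mul_diagonal]
    simp_rw [hεε]
    exact diagonal_one
  have hO' : Oᵀ * O = 1 := mul_eq_one_comm.1 hO
  have hOij : ∀ i j, O i j = ε i * O1 i j := fun i j => by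
    rw [hOdef, diagonal_mul]
  -- push forward
  choose c2 C2 hW using hregW
  choose a1 b1 M1 κ1 hφ using hBP
  have hpush : ∀ k (f : E n → ℝ), Ex (fun x => V (sub k) (lin (A k) x)) f =
      Ex Q (fun z => f (gradient (φ k) z)) := fun k =>
    (hPush n (φ k) _ (a1 k) (b1 k) (M1 k) (κ1 k) (hφ k)).1
  have hgT : ∀ k i, Gr (fun z => gradient (φ k) z i) := fun k i => by
    simp_rw [S151.gradient_apply]
    exact S151.gr_pd (hφ k) i
  set mu : ℕ → Fin n → ℝ := fun k i => Ex Q (fun z => gradient (φ k) z i) with hmu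
  set T : ℕ → E n → Fin n → ℝ := fun k z i => gradient (φ k) z i with hTd
  have hlinA : ∀ k z, (lin (A k) (gradient (φ k) z)).ofLp = A k *ᵥ T k z := fun k z => rfl
  -- centered field in the frame
  set D : ℕ → E n → Fin n → ℝ := fun k z => O *ᵥ (T k z - mu k) with hDd
  have hgD : ∀ k i, Gr (fun z => D k z i) := by
    intro k i
    have : (fun z => D k z i) = fun z => ∑ j, O i j * (T k z j - mu k j) := rfl
    rw [this]
    exact Gr.sum _ fun j _ => ((hgT k j).sub (Gr.const _)).const_mul _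
  -- convergence
  have htau : ∀ z : E n, tau tt O z = O *ᵥ (fun i => Eq630.TT tt O1 ε z i) := by
    intro z
    have e1 : (fun i => Eq630.TT tt O1 ε z i) = Oᵀ *ᵥ tau tt O z := by
      funext i
      have e2 : ∀ j, ε j * ∑ l, O1 j l * z l = ∑ l, O j l * z l := by
        intro j
        rw [Finset.mul_sum]
        exact Finset.sum_congr rfl fun l _ => by rw [hOij]; ring
      have e3 : (Oᵀ *ᵥ tau tt O z) i = ∑ j, O j i * (tt (∑ l, O j l * z l) - 1) := rfl
      rw [e3]
      show ∑ j, O1 j i * (ε j * (tt (ε j * ∑ l, O1 j l * z l) - 1)) = _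
      refine Finset.sum_congr rfl fun j _ => ?_
      rw [e2, hOij]
      ring
    rw [e1, mulVec_mulVec, hO, one_mulVec]
  have hrow : ∀ i, ∑ j, O i j ^ 2 = 1 := fun i => S151.row_sq hO i
  have hconv : ∀ i, Tendsto (fun k => Ex Q (fun z : E n => (D k z i - tau tt O z i) ^ 2)) atTop
      (𝓝 0) := by
    intro i
    have hsum : Tendsto (fun k => ∑ j, Ex Q (fun z : E n => (T k z j - mu k j -
        Eq630.TT tt O1 ε z j) ^ 2)) atTop (𝓝 0) := by
      have := tendsto_finsetSum (Finset.univ : Finset (Fin n)) fun j _ => hlim j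
      simpa using this
    have hgTT : ∀ j, Gr (fun z : E n => Eq630.TT tt O1 ε z j) := by
      intro j
      have e1 : (fun z : E n => Eq630.TT tt O1 ε z j) = fun z => ∑ i, Oᵀ j i * tau tt O z i := by
        funext z
        have e2 : (fun i => Eq630.TT tt O1 ε z i) = Oᵀ *ᵥ tau tt O z := by
          rw [htau z, mulVec_mulVec, hO', one_mulVec]
        exact congrFun e2 j
      rw [e1]
      exact Gr.sum _ fun i _ => (gr_tau hT O i).const_mul _
    have hg1 : ∀ k j, Gr (fun z : E n => (T k z j - mu k j - Eq630.TT tt O1 ε z j) ^ 2) :=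
      fun k j => (((hgT k j).sub (Gr.const _)).sub (hgTT j)).pow 2
    refine squeeze_zero (fun k => Ex_nonneg _ fun z => sq_nonneg _) (fun k => ?_) hsum
    rw [← Ex_sum rQ _ fun j _ => hg1 k j]
    refine Ex_mono rQ (((hgD k i).sub (gr_tau hT O i)).pow 2) (Gr.sum _ fun j _ => hg1 k j)
      fun z => ?_
    have e1 : D k z i - tau tt O z i =
        ∑ j, O i j * (T k z j - mu k j - Eq630.TT tt O1 ε z j) := by
      rw [htau z]
      have : D k z i - (O *ᵥ fun i => Eq630.TT tt O1 ε z i) i =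
          (O *ᵥ (T k z - mu k - fun i => Eq630.TT tt O1 ε z i)) i := by
        rw [mulVec_sub, Pi.sub_apply]
      rw [this]
      rfl
    rw [e1]
    have hcs := Finset.sum_mul_sq_le_sq_mul_sq (Finset.univ : Finset (Fin n)) (fun j => O i j)
      (fun j => T k z j - mu k j - Eq630.TT tt O1 ε z j)
    rwa [hrow, one_mul] at hcs
  -- positions
  set B : ℕ → Matrix (Fin n) (Fin n) ℝ := fun k => A k * Oᵀ with hB
  have hBD : ∀ k z, B k *ᵥ D k z = A k *ᵥ (T k z - mu k) := by
    intro k z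
    rw [hB, hDd]
    simp only
    rw [← mulVec_mulVec, mulVec_mulVec (v := T k z - mu k) (M := Oᵀ) (N := O), hO', one_mulVec]
  set m : ℕ → Fin n → ℝ := fun k => A k *ᵥ mu k with hm
  have hmean : ∀ k i, Ex (V (sub k)) (fun x => x i) = m k i := by
    intro k i
    rw [← S151.Ex_lin (hdetA k) (V (sub k)) (fun x => x i), hpush k]
    have e1 : (fun z => (lin (A k) (gradient (φ k) z)) i) = fun z => ∑ j, A k i j * T k z j := rfl
    rw [e1, Ex_sum rQ _ fun j _ => (hgT k j).const_mul _]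
    exact Finset.sum_congr rfl fun j _ => Ex_const_mul _ _ _
  have hcov : ∀ k (w : Fin n → ℝ), w ⬝ᵥ covV (V (sub k)) *ᵥ w =
      Ex Q (fun z => (w ⬝ᵥ (B k *ᵥ D k z)) ^ 2) := by
    intro k w
    rw [S151.covV_lin (hdetA k) (hW k)]
    have e1 : w ⬝ᵥ (A k * covV (fun y => V (sub k) (lin (A k) y)) * (A k)ᵀ) *ᵥ w =
        ((A k)ᵀ *ᵥ w) ⬝ᵥ (covV (fun y => V (sub k) (lin (A k) y)) *ᵥ ((A k)ᵀ *ᵥ w)) := by
      rw [← mulVec_mulVec, ← mulVec_mulVec, dotProduct_mulVec, ← mulVec_transpose]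
    rw [e1, S151.cov_quad (hφ k) (hpush k)]
    have hgf := S151.gr_ff (hφ k) ((A k)ᵀ *ᵥ w)
    have e2 : ∀ z, w ⬝ᵥ (B k *ᵥ D k z) = S151.ff (φ k) ((A k)ᵀ *ᵥ w) z -
        Ex Q (S151.ff (φ k) ((A k)ᵀ *ᵥ w)) := by
      intro z
      rw [hBD, dotProduct_mulVec, ← mulVec_transpose]
      have e3 : S151.ff (φ k) ((A k)ᵀ *ᵥ w) z = ((A k)ᵀ *ᵥ w) ⬝ᵥ T k z := by
        unfold S151.ff dotProduct
        exact Finset.sum_congr rfl fun j _ => by rw [hTd]; simp only [S151.gradient_apply]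
      have e4 : Ex Q (S151.ff (φ k) ((A k)ᵀ *ᵥ w)) = ((A k)ᵀ *ᵥ w) ⬝ᵥ mu k := by
        have e5 : S151.ff (φ k) ((A k)ᵀ *ᵥ w) = fun z => ∑ j, ((A k)ᵀ *ᵥ w) j * T k z j := by
          funext z
          unfold S151.ff
          exact Finset.sum_congr rfl fun j _ => by rw [hTd]; simp only [S151.gradient_apply]
        rw [e5, Ex_sum rQ _ fun j _ => (hgT k j).const_mul _]
        exact Finset.sum_congr rfl fun j _ => Ex_const_mul _ _ _
      rw [e3, e4, dotProduct_sub]
    simp_rw [e2]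
    set f := S151.ff (φ k) ((A k)ᵀ *ᵥ w) with hf
    have e6 : ∀ z, (f z - Ex Q f) ^ 2 = f z ^ 2 + ((-2 * Ex Q f) * f z + (Ex Q f) ^ 2) :=
      fun z => by ring
    simp_rw [e6]
    rw [Ex_add rQ (hgf.pow 2) ((hgf.const_mul _).add (Gr.const _)),
      Ex_add rQ (hgf.const_mul _) (Gr.const _), Ex_const_mul, Ex_const rQ]
    ring
  have hS : Tendsto (fun k => covV (V (sub k))) atTop (𝓝 (R304.covF (R304.limDens 0 c C))) :=
    hV.cov.comp hsub.tendsto_atTop
  have hm0 : Tendsto m atTop (𝓝 fun i => R304.Ef (R304.limDens 0 c C) fun x => x i) := by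
    refine tendsto_pi_nhds.2 fun i => ?_
    have h1 := (hV.ex _ (R304.pg_coord i)).comp hsub.tendsto_atTop
    refine h1.congr fun k => ?_
    exact hmean k i
  obtain ⟨ψ, B0, hψ, hB0, hF⟩ := lim_core hT hO hgD hconv hcov hS (covF_posDef hA) hm0
  refine support_eq hT hA hO hB0 (m := fun i => R304.Ef (R304.limDens 0 c C) fun x => x i) ?_
  intro F hF1 hF2
  have hpg : R304.PolyGrowth F :=
    ⟨hF1.continuous.aestronglyMeasurable, 1, 0, fun x => by rw [pow_zero, mul_one]; exact hF2 x⟩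
  have h1 := ((hV.ex F hpg).comp hsub.tendsto_atTop).comp hψ.tendsto_atTop
  have h2 := hF F hF1 hF2
  refine tendsto_nhds_unique h1 (h2.congr fun k => ?_)
  simp only [Function.comp_apply]
  rw [← S151.Ex_lin (hdetA (ψ k)) (V (sub (ψ k))) (fun x => F x.ofLp), hpush (ψ k)]
  refine Ex_congr _ fun z => ?_
  rw [hlinA, hBD, hm]
  simp only
  rw [mulVec_sub, sub_add_cancel]

/-- **the equality case in general position**, from the blocks of the `(SP_0)` line -/
theorem stmtEq_of {P : SP.F1} (hLim : SP.E72.StmtLim P) (hStab : SP.E72.StmtStab P)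
    (hPos : SP.StmtPos) (hPush : StmtPush) : Eq657.StmtEq :=
  stmtEq_of_limT (tf_of P) (Eq630.stmtLimT_of hLim hStab hPos hPush) hPush

end Vale.Agent.P254.Eq351
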