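import Vale.Agent.P254.SP.H351.Sup
import Vale.Agent.P254.Bdl.B11

/-!
# P254 / P248, block SP, equality case, second half, part B (helper351): compactness of positions
-/

open MeasureTheory Set Matrix Filter Topology

namespace Vale.Agent.P254.Eq351

open Vale.Agent.P227.M Vale.Agent.P254.S

variable {n : ℕ} {tt : ℝ → ℝ} {O : Matrix (Fin n) (Fin n) ℝ}

theorem rQ : Reg (Q : E n → ℝ) 1 1 := S151.regQ

theorem gr_dot {D : E n → Fin n → ℝ} (hD : ∀ i, Gr (fun z => D z i)) (b : Fin n → ℝ) :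
    Gr (fun z => b ⬝ᵥ D z) := by
  unfold dotProduct
  exact Gr.sum _ fun i _ => (hD i).const_mul _

theorem dot_sq_le (b d : Fin n → ℝ) : (b ⬝ᵥ d) ^ 2 ≤ (b ⬝ᵥ b) * ∑ i, d i ^ 2 := by
  have h := Finset.sum_mul_sq_le_sq_mul_sq Finset.univ b d
  have e : b ⬝ᵥ b = ∑ i, b i ^ 2 := Finset.sum_congr rfl fun i _ => (sq (b i)).symm
  rw [e]
  exact h

/-- lower bound of the quadratic form of the limit map -/
theorem lower (hT : TF tt) (hO : O * Oᵀ = 1) : ∃ l : ℝ, 0 < l ∧ ∀ b : Fin n → ℝ,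
    l * (b ⬝ᵥ b) ≤ Ex Q (fun z : E n => (b ⬝ᵥ tau tt O z) ^ 2) := by
  have hgr : ∀ b : Fin n → ℝ, Gr (fun z : E n => (b ⬝ᵥ tau tt O z) ^ 2) := fun b =>
    (gr_dot (fun i => gr_tau hT O i) b).pow 2
  have hpos : ∀ b : Fin n → ℝ, b ≠ 0 → 0 < Ex Q (fun z : E n => (b ⬝ᵥ tau tt O z) ^ 2) := by
    intro b hb
    have hS : 0 < 1 + ∑ j, |b j| := by
      have : 0 ≤ ∑ j, |b j| := Finset.sum_nonneg fun j _ => abs_nonneg _
      linarith
    obtain ⟨z, hz⟩ := range_tau (tt := tt) hT hO (y := (1 + ∑ j, |b j|)⁻¹ • b) (fun j => by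
      rw [Pi.smul_apply, smul_eq_mul]
      have h1 : |(1 + ∑ j, |b j|)⁻¹ * b j| < 1 := by
        rw [abs_mul, abs_of_pos (inv_pos.2 hS), inv_mul_lt_iff₀ hS, mul_one]
        have : |b j| ≤ ∑ j, |b j| := Finset.single_le_sum (f := fun j => |b j|)
          (fun j _ => abs_nonneg _) (Finset.mem_univ j)
        linarith
      linarith [neg_abs_le ((1 + ∑ j, |b j|)⁻¹ * b j)])
    refine S332.Ex_pos (hgr b) (fun z => sq_nonneg _) (z₀ := z) ?_
    rw [hz, dotProduct_smul, smul_eq_mul]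
    have : 0 < b ⬝ᵥ b := R304.dot_pos hb
    positivity
  have hcont : Continuous fun b : Fin n → ℝ => Ex Q (fun z : E n => (b ⬝ᵥ tau tt O z) ^ 2) := by
    have e : ∀ b : Fin n → ℝ, Ex Q (fun z : E n => (b ⬝ᵥ tau tt O z) ^ 2) =
        ∑ i, ∑ j, b i * b j * Ex Q (fun z : E n => tau tt O z i * tau tt O z j) := by
      intro b
      have e1 : (fun z : E n => (b ⬝ᵥ tau tt O z) ^ 2) =
          fun z => ∑ i, ∑ j, b i * b j * (tau tt O z i * tau tt O z j) := by
        funext z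
        unfold dotProduct
        rw [sq, Finset.sum_mul_sum]
        exact Finset.sum_congr rfl fun i _ => Finset.sum_congr rfl fun j _ => by ring
      rw [e1, Ex_sum rQ _ fun i _ => Gr.sum _ fun j _ =>
        ((gr_tau hT O i).mul (gr_tau hT O j)).const_mul _]
      refine Finset.sum_congr rfl fun i _ => ?_
      rw [Ex_sum rQ _ fun j _ => ((gr_tau hT O i).mul (gr_tau hT O j)).const_mul _]
      exact Finset.sum_congr rfl fun j _ => Ex_const_mul _ _ _
    simp_rw [e]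
    fun_prop
  have hcomp : IsCompact {b : Fin n → ℝ | b ⬝ᵥ b = 1} := by
    refine Metric.isCompact_of_isClosed_isBounded ?_ ?_
    · exact isClosed_eq R304.continuous_dot_self continuous_const
    · refine (Metric.isBounded_closedBall (x := (0 : Fin n → ℝ)) (r := 1)).subset fun b hb => ?_
      rw [mem_closedBall_zero_iff]
      have h1 := R304.norm_sq_le_dot' b
      rw [hb] at h1
      nlinarith [norm_nonneg b]
  by_cases hne : {b : Fin n → ℝ | b ⬝ᵥ b = 1}.Nonempty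
  · obtain ⟨b0, hb0, hmin⟩ := hcomp.exists_isMinOn hne hcont.continuousOn
    have hb0' : b0 ≠ 0 := by
      rintro rfl
      simp at hb0
    refine ⟨_, hpos b0 hb0', fun b => ?_⟩
    by_cases hb : b = 0
    · subst hb
      simp only [dotProduct_zero, mul_zero]
      exact Ex_nonneg _ fun z => sq_nonneg _
    · have hbb : 0 < b ⬝ᵥ b := R304.dot_pos hb
      set r := Real.sqrt (b ⬝ᵥ b) with hr
      have hr0 : 0 < r := Real.sqrt_pos.2 hbb
      have hr2 : r ^ 2 = b ⬝ᵥ b := Real.sq_sqrt hbb.le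
      have h1 : (r⁻¹ • b) ⬝ᵥ (r⁻¹ • b) = 1 := by
        rw [dotProduct_smul, smul_dotProduct, smul_eq_mul, smul_eq_mul, ← hr2]
        field_simp
      have h2 := hmin (a := r⁻¹ • b) h1
      simp only [mem_ofPred_eq] at h2
      have h3 : Ex Q (fun z : E n => ((r⁻¹ • b) ⬝ᵥ tau tt O z) ^ 2) =
          (r⁻¹) ^ 2 * Ex Q (fun z : E n => (b ⬝ᵥ tau tt O z) ^ 2) := by
        rw [← Ex_const_mul]
        refine Ex_congr _ fun z => ?_
        rw [smul_dotProduct, smul_eq_mul]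
        ring
      rw [h3] at h2
      rw [← hr2]
      calc Ex Q (fun z : E n => (b0 ⬝ᵥ tau tt O z) ^ 2) * r ^ 2
          ≤ (r⁻¹) ^ 2 * Ex Q (fun z : E n => (b ⬝ᵥ tau tt O z) ^ 2) * r ^ 2 :=
            mul_le_mul_of_nonneg_right h2 (sq_nonneg r)
        _ = Ex Q (fun z : E n => (b ⬝ᵥ tau tt O z) ^ 2) := by
            field_simp
  · refine ⟨1, one_pos, fun b => ?_⟩
    have hb : b = 0 := by
      by_contra hb
      refine hne ⟨(Real.sqrt (b ⬝ᵥ b))⁻¹ • b, ?_⟩
      have hbb : 0 < b ⬝ᵥ b := R304.dot_pos hb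
      have hr0 : 0 < Real.sqrt (b ⬝ᵥ b) := Real.sqrt_pos.2 hbb
      have hr2 : Real.sqrt (b ⬝ᵥ b) ^ 2 = b ⬝ᵥ b := Real.sq_sqrt hbb.le
      simp only [mem_ofPred_eq]
      rw [dotProduct_smul, smul_dotProduct, smul_eq_mul, smul_eq_mul]
      nth_rewrite 3 [← hr2]
      field_simp
    subst hb
    simp only [dotProduct_zero, mul_zero]
    exact Ex_nonneg _ fun z => sq_nonneg _

/-- a 1-Lipschitz function for the sup norm -/
theorem lip_sum {F : (Fin n → ℝ) → ℝ} (hF : LipschitzWith 1 F) (x y : Fin n → ℝ) :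
    |F x - F y| ≤ ∑ i, |x i - y i| := by
  have h1 : |F x - F y| ≤ dist x y := by
    have := hF.dist_le_mul x y
    rw [Real.dist_eq] at this
    simpa using this
  refine h1.trans ((dist_pi_le_iff (Finset.sum_nonneg fun i _ => abs_nonneg _)).2 fun i => ?_)
  rw [Real.dist_eq]
  exact Finset.single_le_sum (f := fun i => |x i - y i|) (fun i _ => abs_nonneg _)
    (Finset.mem_univ i)

/-- compactness of the positions -/
theorem lim_core (hT : TF tt) (hO : O * Oᵀ = 1) {D : ℕ → E n → Fin n → ℝ}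
    (hD : ∀ k i, Gr (fun z => D k z i))
    (hconv : ∀ i, Tendsto (fun k => Ex Q (fun z : E n => (D k z i - tau tt O z i) ^ 2)) atTop
      (𝓝 0))
    {B : ℕ → Matrix (Fin n) (Fin n) ℝ} {S : ℕ → Matrix (Fin n) (Fin n) ℝ}
    {S0 : Matrix (Fin n) (Fin n) ℝ}
    (hcov : ∀ k (w : Fin n → ℝ), w ⬝ᵥ S k *ᵥ w = Ex Q (fun z => (w ⬝ᵥ (B k *ᵥ D k z)) ^ 2))
    (hS : Tendsto S atTop (𝓝 S0)) (hpd : S0.PosDef)
    {m : ℕ → Fin n → ℝ} {m0 : Fin n → ℝ} (hm : Tendsto m atTop (𝓝 m0)) :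
    ∃ (ψ : ℕ → ℕ) (B0 : Matrix (Fin n) (Fin n) ℝ), StrictMono ψ ∧ B0.det ≠ 0 ∧
      ∀ F : (Fin n → ℝ) → ℝ, LipschitzWith 1 F → (∀ x, |F x| ≤ 1) →
        Tendsto (fun k => Ex Q (fun z => F (B (ψ k) *ᵥ D (ψ k) z + m (ψ k)))) atTop
          (𝓝 (Ex Q (fun z => F (B0 *ᵥ tau tt O z + m0)))) := by
  obtain ⟨l, hl, hlow⟩ := lower (n := n) hT hO
  have hgt : ∀ i, Gr (fun z : E n => tau tt O z i) := fun i => gr_tau hT O i
  set δ : ℕ → ℝ := fun k => ∑ i, Ex Q (fun z : E n => (D k z i - tau tt O z i) ^ 2) with hδ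
  have hδ0 : Tendsto δ atTop (𝓝 0) := by
    have := tendsto_finsetSum Finset.univ fun i (_ : i ∈ Finset.univ) => hconv i
    simpa using this
  have hgd : ∀ k i, Gr (fun z : E n => D k z i - tau tt O z i) := fun k i =>
    (hD k i).sub (hgt i)
  have hδeq : ∀ k, δ k = Ex Q (fun z : E n => ∑ i, (D k z i - tau tt O z i) ^ 2) := fun k =>
    (Ex_sum rQ _ fun i _ => (hgd k i).pow 2).symm
  have hquad : ∀ k (b : Fin n → ℝ), l * (b ⬝ᵥ b) ≤
      2 * Ex Q (fun z : E n => (b ⬝ᵥ D k z) ^ 2) + 2 * (b ⬝ᵥ b) * δ k := by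
    intro k b
    refine (hlow b).trans ?_
    rw [hδeq, ← Ex_const_mul, ← Ex_const_mul, ← Ex_add rQ
      (((gr_dot (hD k) b).pow 2).const_mul _)
      ((Gr.sum _ fun i _ => (hgd k i).pow 2).const_mul _)]
    refine Ex_mono rQ ((gr_dot hgt b).pow 2) ((((gr_dot (hD k) b).pow 2).const_mul _).add
      ((Gr.sum _ fun i _ => (hgd k i).pow 2).const_mul _)) fun z => ?_
    have h1 := dot_sq_le b (D k z - tau tt O z)
    have h2 : b ⬝ᵥ (D k z - tau tt O z) = b ⬝ᵥ D k z - b ⬝ᵥ tau tt O z := dotProduct_sub _ _ _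
    rw [h2] at h1
    simp only [Pi.sub_apply] at h1
    nlinarith [sq_nonneg (2 * (b ⬝ᵥ D k z) - b ⬝ᵥ tau tt O z)]
  have hev : ∀ᶠ k in atTop, δ k ≤ l / 4 := by
    have := hδ0.eventually_lt_const (u := l / 4) (by positivity)
    filter_upwards [this] with k hk using hk.le
  have hquad2 : ∀ᶠ k in atTop, ∀ b : Fin n → ℝ, l / 4 * (b ⬝ᵥ b) ≤
      Ex Q (fun z : E n => (b ⬝ᵥ D k z) ^ 2) := by
    filter_upwards [hev] with k hk b
    have h1 := hquad k b
    have h2 : 0 ≤ b ⬝ᵥ b := R304.dot_nonneg b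
    nlinarith [mul_le_mul_of_nonneg_left hk h2]
  -- bound of the rows
  obtain ⟨R, hR⟩ : ∃ R : ℝ, ∀ᶠ k in atTop, ∀ i, S k i i ≤ R := by
    refine ⟨∑ i, |S0 i i| + 1, ?_⟩
    have h1 : ∀ i, ∀ᶠ k in atTop, S k i i ≤ ∑ i, |S0 i i| + 1 := by
      intro i
      have h2 : Tendsto (fun k => S k i i) atTop (𝓝 (S0 i i)) :=
        tendsto_pi_nhds.1 (tendsto_pi_nhds.1 hS i) i
      have h3 : S0 i i < ∑ i, |S0 i i| + 1 := by
        have h4 : |S0 i i| ≤ ∑ i, |S0 i i| := Finset.single_le_sum (f := fun i => |S0 i i|)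
          (fun j _ => abs_nonneg _) (Finset.mem_univ i)
        linarith [le_abs_self (S0 i i)]
      filter_upwards [h2.eventually_lt_const h3] with k hk using hk.le
    exact eventually_all.2 h1
  have hdotB : ∀ k (w : Fin n → ℝ) (z : E n),
      w ⬝ᵥ (B k *ᵥ D k z) = (w ᵥ* B k) ⬝ᵥ D k z := fun k w z => dotProduct_mulVec _ _ _
  have hrow : ∀ᶠ k in atTop, ∀ i j, B k i j ∈ Icc (-(1 + 4 * R / l)) (1 + 4 * R / l) := by
    filter_upwards [hquad2, hR] with k hk hRk i j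
    have h1 := hk (Pi.single i 1 ᵥ* B k)
    have h2 := hcov k (Pi.single i 1)
    simp_rw [hdotB] at h2
    rw [← h2] at h1
    have h3 : (Pi.single i (1 : ℝ)) ⬝ᵥ S k *ᵥ (Pi.single i 1) = S k i i := by
      simp
    rw [h3, single_one_vecMul] at h1
    have h4 : B k i j ^ 2 ≤ B k i ⬝ᵥ B k i := by
      have : B k i ⬝ᵥ B k i = ∑ p, B k i p ^ 2 := Finset.sum_congr rfl fun p _ => (sq _).symm
      rw [this]
      exact Finset.single_le_sum (f := fun p => B k i p ^ 2) (fun p _ => sq_nonneg _)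
        (Finset.mem_univ j)
    have h5 : B k i j ^ 2 ≤ 4 * R / l := by
      rw [le_div_iff₀ hl]
      have h6 : l / 4 * B k i j ^ 2 ≤ l / 4 * (B k i ⬝ᵥ B k i) :=
        mul_le_mul_of_nonneg_left h4 (by positivity)
      have h7 : l / 4 * (B k i ⬝ᵥ B k i) ≤ R := h1.trans (hRk i)
      linarith
    have h8 : |B k i j| ≤ 1 + 4 * R / l := by
      have : |B k i j| ≤ 1 + B k i j ^ 2 := by
        nlinarith [sq_abs (B k i j), sq_nonneg (|B k i j| - 1), abs_nonneg (B k i j)]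
      linarith
    exact abs_le.1 h8
  have hcomp : IsCompact {M : Fin n → Fin n → ℝ | ∀ i j,
      M i j ∈ Icc (-(1 + 4 * R / l)) (1 + 4 * R / l)} := by
    have h1 : IsCompact (Set.pi univ fun _ : Fin n => Set.pi univ fun _ : Fin n =>
        Icc (-(1 + 4 * R / l)) (1 + 4 * R / l)) :=
      isCompact_univ_pi fun _ => isCompact_univ_pi fun _ => isCompact_Icc
    refine h1.of_isClosed_subset ?_ fun M hM => ?_
    · have : {M : Fin n → Fin n → ℝ | ∀ i j, M i j ∈ Icc (-(1 + 4 * R / l)) (1 + 4 * R / l)} =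
          ⋂ i, ⋂ j, {M | M i j ∈ Icc (-(1 + 4 * R / l)) (1 + 4 * R / l)} := by
        ext M
        simp only [mem_iInter, mem_ofPred_eq]
      rw [this]
      refine isClosed_iInter fun i => isClosed_iInter fun j => ?_
      have hc : Continuous fun M : Fin n → Fin n → ℝ => M i j := by fun_prop
      exact isClosed_Icc.preimage hc
    · exact fun i _ j _ => hM i j
  obtain ⟨B0, -, ψ, hψ, hB0⟩ : ∃ B0 ∈ {M : Fin n → Fin n → ℝ | ∀ i j,
      M i j ∈ Icc (-(1 + 4 * R / l)) (1 + 4 * R / l)}, ∃ ψ : ℕ → ℕ, StrictMono ψ ∧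
      Tendsto ((fun k => (show Fin n → Fin n → ℝ from B k)) ∘ ψ) atTop (𝓝 B0) :=
    hcomp.tendsto_subseq' (x := fun k => (show Fin n → Fin n → ℝ from B k)) hrow.frequently
  have hBij : ∀ i j, Tendsto (fun k => B (ψ k) i j) atTop (𝓝 (B0 i j)) := fun i j =>
    tendsto_pi_nhds.1 (tendsto_pi_nhds.1 hB0 i) j
  have hψt : Tendsto ψ atTop atTop := hψ.tendsto_atTop
  refine ⟨ψ, B0, hψ, ?_, ?_⟩
  · -- invertible
    intro hdet
    obtain ⟨w, hw, hw0⟩ := (Matrix.exists_vecMul_eq_zero_iff (M := (B0 : Matrix (Fin n) (Fin n) ℝ))).2 hdet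
    have h1 : 0 < w ⬝ᵥ S0 *ᵥ w := by
      have := hpd.dotProduct_mulVec_pos hw
      simpa using this
    set c0 : ℝ := 2 * ∑ i, Ex Q (fun z : E n => tau tt O z i ^ 2) with hc0
    have h2 : ∀ k, w ⬝ᵥ S k *ᵥ w ≤ ((w ᵥ* B k) ⬝ᵥ (w ᵥ* B k)) * (2 * δ k + c0) := by
      intro k
      rw [hcov, hδeq, hc0, ← Ex_sum rQ _ fun i _ => (hgt i).pow 2, ← mul_add,
        ← Ex_add rQ (Gr.sum _ fun i _ => (hgd k i).pow 2) (Gr.sum _ fun i _ => (hgt i).pow 2),
        ← Ex_const_mul, ← Ex_const_mul]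
      have hgw : Gr (fun z => (w ⬝ᵥ (B k *ᵥ D k z)) ^ 2) := by
        simp_rw [hdotB]
        exact (gr_dot (hD k) _).pow 2
      refine Ex_mono rQ hgw ((((Gr.sum _ fun i _ => (hgd k i).pow 2).add
        (Gr.sum _ fun i _ => (hgt i).pow 2)).const_mul _).const_mul _) fun z => ?_
      rw [hdotB]
      refine (dot_sq_le _ _).trans (mul_le_mul_of_nonneg_left ?_ (R304.dot_nonneg _))
      rw [← Finset.sum_add_distrib, Finset.mul_sum]
      refine Finset.sum_le_sum fun i _ => ?_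
      nlinarith [sq_nonneg (D k z i - 2 * tau tt O z i)]
    have h3 : Tendsto (fun k => w ⬝ᵥ S (ψ k) *ᵥ w) atTop (𝓝 (w ⬝ᵥ S0 *ᵥ w)) := by
      have h4 : Tendsto (fun k => S (ψ k) *ᵥ w) atTop (𝓝 (S0 *ᵥ w)) :=
        ((Continuous.matrix_mulVec continuous_id continuous_const).tendsto S0).comp
          (hS.comp hψt)
      exact ((Continuous.dotProduct continuous_const continuous_id).tendsto _).comp h4
    have h5 : Tendsto (fun k => ((w ᵥ* B (ψ k)) ⬝ᵥ (w ᵥ* B (ψ k))) * (2 * δ (ψ k) + c0)) atTop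
        (𝓝 0) := by
      have h6 : Tendsto (fun k => w ᵥ* B (ψ k)) atTop (𝓝 (w ᵥ* (B0 : Matrix (Fin n) (Fin n) ℝ))) := by
        have h7 : Continuous fun M : Matrix (Fin n) (Fin n) ℝ => w ᵥ* M :=
          Continuous.matrix_vecMul continuous_const continuous_id
        exact (h7.tendsto _).comp hB0
      rw [hw0] at h6
      have h8 : Tendsto (fun k => (w ᵥ* B (ψ k)) ⬝ᵥ (w ᵥ* B (ψ k))) atTop (𝓝 0) := by
        have := (R304.continuous_dot_self.tendsto _).comp h6
        rw [dotProduct_zero] at this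
        exact this
      have h9 : Tendsto (fun k => 2 * δ (ψ k) + c0) atTop (𝓝 (2 * 0 + c0)) :=
        ((hδ0.comp hψt).const_mul 2).add_const c0
      have := h8.mul h9
      simpa using this
    have h10 := le_of_tendsto_of_tendsto' h3 h5 fun k => h2 (ψ k)
    linarith
  · intro F hF hFb
    rw [tendsto_iff_norm_sub_tendsto_zero]
    set e : ℕ → ℝ := fun k => ∑ i, (∑ p, |B (ψ k) i p| *
        Ex Q (fun z : E n => |D (ψ k) z p - tau tt O z p|) +
        ∑ p, |B (ψ k) i p - B0 i p| * Ex Q (fun z : E n => |tau tt O z p|) +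
        |m (ψ k) i - m0 i|) with he
    have hab : ∀ p, Tendsto (fun k => Ex Q (fun z : E n => |D (ψ k) z p - tau tt O z p|)) atTop
        (𝓝 0) := by
      intro p
      have h1 : Tendsto (fun k => Real.sqrt (Ex Q (fun z : E n =>
          (D (ψ k) z p - tau tt O z p) ^ 2))) atTop (𝓝 0) := by
        have := ((hconv p).comp hψt).sqrt
        simpa using this
      refine squeeze_zero (fun k => Ex_nonneg _ fun z => abs_nonneg _) (fun k => ?_) h1
      refine Real.le_sqrt_of_sq_le ?_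
      refine (sq_Ex_le rQ (hgd (ψ k) p).abs).trans (le_of_eq ?_)
      exact Ex_congr _ fun z => sq_abs _
    have he0 : Tendsto e atTop (𝓝 0) := by
      have h1 : Tendsto e atTop (𝓝 (∑ i, (∑ p, |B0 i p| * 0 +
          ∑ p, |B0 i p - B0 i p| * Ex Q (fun z : E n => |tau tt O z p|) + |m0 i - m0 i|))) := by
        refine tendsto_finsetSum _ fun i _ => Tendsto.add (Tendsto.add ?_ ?_) ?_
        · exact tendsto_finsetSum _ fun p _ => (hBij i p).abs.mul (hab p)
        · exact tendsto_finsetSum _ fun p _ =>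
            (((hBij i p).sub tendsto_const_nhds).abs).mul_const _
        · have h2 : Tendsto (fun k => m (ψ k) i) atTop (𝓝 (m0 i)) :=
            (tendsto_pi_nhds.1 hm i).comp hψt
          exact (h2.sub tendsto_const_nhds).abs
      simpa using h1
    refine squeeze_zero (fun k => norm_nonneg _) (fun k => ?_) he0
    rw [Real.norm_eq_abs]
    have hg1 : Gr (fun z : E n => F (B (ψ k) *ᵥ D (ψ k) z + m (ψ k))) := by
      refine Gr.of_bound (B := 1) ?_ fun x => hFb _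
      have hc : Continuous fun z : E n => D (ψ k) z :=
        continuous_pi fun i => (hD (ψ k) i).cont
      exact hF.continuous.comp ((Continuous.matrix_mulVec continuous_const hc).add
        continuous_const)
    have hg2 : Gr (fun z : E n => F (B0 *ᵥ tau tt O z + m0)) := by
      refine Gr.of_bound (B := 1) ?_ fun x => hFb _
      exact hF.continuous.comp ((Continuous.matrix_mulVec continuous_const (cont_tau hT O)).add
        continuous_const)
    rw [← Ex_sub rQ hg1 hg2]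
    refine (abs_Ex_le rQ (hg1.sub hg2)).trans ?_
    have hgs : ∀ i, Gr (fun z : E n => (∑ p, |B (ψ k) i p| * |D (ψ k) z p - tau tt O z p|) +
        (∑ p, |B (ψ k) i p - B0 i p| * |tau tt O z p|) + |m (ψ k) i - m0 i|) := fun i =>
      ((Gr.sum _ fun p _ => (hgd (ψ k) p).abs.const_mul _).add
        (Gr.sum _ fun p _ => (hgt p).abs.const_mul _)).add (Gr.const _)
    have hee : e k = Ex Q (fun z : E n => ∑ i, ((∑ p, |B (ψ k) i p| *
        |D (ψ k) z p - tau tt O z p|) +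
        (∑ p, |B (ψ k) i p - B0 i p| * |tau tt O z p|) + |m (ψ k) i - m0 i|)) := by
      rw [he, Ex_sum rQ _ fun i _ => hgs i]
      refine Finset.sum_congr rfl fun i _ => ?_
      rw [Ex_add rQ ((Gr.sum _ fun p _ => (hgd (ψ k) p).abs.const_mul _).add
        (Gr.sum _ fun p _ => (hgt p).abs.const_mul _)) (Gr.const _), Ex_const rQ,
        Ex_add rQ (Gr.sum _ fun p _ => (hgd (ψ k) p).abs.const_mul _)
        (Gr.sum _ fun p _ => (hgt p).abs.const_mul _),
        Ex_sum rQ _ fun p _ => (hgd (ψ k) p).abs.const_mul _,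
        Ex_sum rQ _ fun p _ => (hgt p).abs.const_mul _]
      simp_rw [Ex_const_mul]
    rw [hee]
    refine Ex_mono rQ (hg1.sub hg2).abs (Gr.sum _ fun i _ => hgs i) fun z => ?_
    refine (lip_sum hF _ _).trans (Finset.sum_le_sum fun i _ => ?_)
    have h1 : (B (ψ k) *ᵥ D (ψ k) z + m (ψ k)) i - (B0 *ᵥ tau tt O z + m0) i =
        ∑ p, (B (ψ k) i p * (D (ψ k) z p - tau tt O z p)) +
        ∑ p, ((B (ψ k) i p - B0 i p) * tau tt O z p) + (m (ψ k) i - m0 i) := by
      simp only [Pi.add_apply]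
      unfold mulVec dotProduct
      rw [← Finset.sum_add_distrib]
      have : ∀ p, B (ψ k) i p * (D (ψ k) z p - tau tt O z p) +
          (B (ψ k) i p - B0 i p) * tau tt O z p =
          B (ψ k) i p * D (ψ k) z p - B0 i p * tau tt O z p := fun p => by ring
      simp_rw [this]
      rw [Finset.sum_sub_distrib]
      ring
    rw [h1]
    refine (abs_add_le _ _).trans (add_le_add ((abs_add_le _ _).trans (add_le_add ?_ ?_)) le_rfl)
    · refine (Finset.abs_sum_le_sum_abs _ _).trans (Finset.sum_le_sum fun p _ => ?_)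
      rw [abs_mul]
    · refine (Finset.abs_sum_le_sum_abs _ _).trans (Finset.sum_le_sum fun p _ => ?_)
      rw [abs_mul]

end Vale.Agent.P254.Eq351
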