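import Vale.Agent.P254.S.H332.Cov
import Vale.Agent.P254.S.H151.Gau
import Vale.Agent.P254.H657.Iface
import Vale.Agent.P254.SP.H72.Iface

/-!
# P254 / P248, block SP, equality case, second half, part C (helper351): supports

If the law of `1_C e^{⟨c,x⟩}` is the image of the Gaussian under `z ↦ B (t(O z) - 1) + m`, `O`
orthogonal, `B` invertible, then `C` is an affine image of the orthant.
-/

open MeasureTheory Set Matrix Filter Topology

namespace Vale.Agent.P254.Eq351

open Vale.Agent.P227.M Vale.Agent.P254.S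

variable {n : ℕ}

/-- what is used of `tt = -log P(g > x)` -/
structure TF (tt : ℝ → ℝ) : Prop where
  cont : Continuous tt
  pos : ∀ x, 0 < tt x
  onto : ∀ y, 0 < y → ∃ x, tt x = y
  gr : ∃ B, ∀ x, |tt x| ≤ B * (1 + x ^ 2)

/-- the limit map in the frame `O` -/
noncomputable def tau (tt : ℝ → ℝ) (O : Matrix (Fin n) (Fin n) ℝ) (z : E n) (i : Fin n) : ℝ :=
  tt (∑ j, O i j * z j) - 1

theorem Gr_of_le {f g : E n → ℝ} (hf : Continuous f) (hg : Gr g) (h : ∀ x, |f x| ≤ |g x|) :
    Gr f := by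
  obtain ⟨B, k, hB, hg⟩ := hg.2
  exact ⟨hf, B, k, hB, fun x => (h x).trans (hg x)⟩

theorem TF.gr_comp {tt : ℝ → ℝ} (hT : TF tt) {f : E n → ℝ} (hf : Gr f) :
    Gr (fun z => tt (f z)) := by
  obtain ⟨B, hB⟩ := hT.gr
  refine Gr_of_le (hT.cont.comp hf.cont) (((Gr.const 1).add (hf.pow 2)).const_mul B) fun x => ?_
  exact (hB (f x)).trans (le_abs_self _)

theorem gr_tau {tt : ℝ → ℝ} (hT : TF tt) (O : Matrix (Fin n) (Fin n) ℝ) (i : Fin n) :
    Gr (fun z => tau tt O z i) := by
  unfold tau
  refine Gr.sub ?_ (Gr.const 1)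
  exact hT.gr_comp (Gr.sum _ fun l _ => (Gr.coord l).const_mul _)

theorem cont_tau {tt : ℝ → ℝ} (hT : TF tt) (O : Matrix (Fin n) (Fin n) ℝ) :
    Continuous (fun z : E n => tau tt O z) :=
  continuous_pi fun i => (gr_tau hT O i).cont

variable {tt : ℝ → ℝ} {O : Matrix (Fin n) (Fin n) ℝ}

theorem tau_gt (hT : TF tt) (z : E n) (j : Fin n) : -1 < tau tt O z j := by
  have := hT.pos (∑ l, O j l * z l)
  unfold tau
  linarith

theorem range_tau (hT : TF tt) (hO : O * Oᵀ = 1) {y : Fin n → ℝ} (hy : ∀ j, -1 < y j) :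
    ∃ z : E n, tau tt O z = y := by
  have h1 : ∀ j, ∃ x, tt x = y j + 1 := fun j =>
    hT.onto _ (by have := hy j; linarith)
  choose x hx using h1
  refine ⟨WithLp.toLp 2 (Oᵀ *ᵥ x), ?_⟩
  funext j
  have h2 : ∑ l, O j l * (WithLp.toLp 2 (Oᵀ *ᵥ x) : E n) l = x j := by
    have : (O *ᵥ (Oᵀ *ᵥ x)) j = x j := by
      rw [mulVec_mulVec, hO, one_mulVec]
    exact this
  unfold tau
  rw [h2, hx j, add_sub_cancel_right]

/-- truncated distance -/
noncomputable def td (S : Set (Fin n → ℝ)) (x : Fin n → ℝ) : ℝ := min 1 (Metric.infDist x S)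

theorem td_nonneg (S : Set (Fin n → ℝ)) (x : Fin n → ℝ) : 0 ≤ td S x :=
  le_min zero_le_one Metric.infDist_nonneg

theorem td_le (S : Set (Fin n → ℝ)) (x : Fin n → ℝ) : |td S x| ≤ 1 := by
  rw [abs_of_nonneg (td_nonneg S x)]
  exact min_le_left _ _

theorem td_lip (S : Set (Fin n → ℝ)) : LipschitzWith 1 (td S) := by
  have h1 : LipschitzWith 1 (fun x : Fin n → ℝ => Metric.infDist x S) :=
    Metric.lipschitz_infDist_pt S
  exact h1.const_min 1

theorem td_eq_zero {S : Set (Fin n → ℝ)} (hS : IsClosed S) (hne : S.Nonempty) {x : Fin n → ℝ} :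
    td S x = 0 ↔ x ∈ S := by
  unfold td
  constructor
  · intro h
    have h1 : Metric.infDist x S = 0 := by
      rcases min_choice 1 (Metric.infDist x S) with h2 | h2
      · rw [h2] at h; norm_num at h
      · rw [h2] at h; exact h
    rwa [hS.mem_iff_infDist_zero hne]
  · intro h
    rw [(hS.mem_iff_infDist_zero hne).1 h]
    exact min_eq_right zero_le_one

/-- supports -/
theorem support_eq (hT : TF tt) {C : Set (Fin n → ℝ)} {c : Fin n → ℝ} {a b : ℝ}
    (hA : Eq657.Adm C c a b) (hO : O * Oᵀ = 1)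
    {A : Matrix (Fin n) (Fin n) ℝ} {m : Fin n → ℝ} (hdet : A.det ≠ 0)
    (h : ∀ F : (Fin n → ℝ) → ℝ, LipschitzWith 1 F → (∀ x, |F x| ≤ 1) →
      R304.Ef (R304.limDens 0 c C) F = Ex Q (fun z => F (A *ᵥ tau tt O z + m))) :
    ∃ (A' : Matrix (Fin n) (Fin n) ℝ) (v : Fin n → ℝ), A'.det ≠ 0 ∧
      C = {x | ∀ i, 0 ≤ (A' *ᵥ x + v) i} := by
  have hU : IsUnit A.det := isUnit_iff_ne_zero.2 hdet
  have hAi : A * A⁻¹ = 1 := Matrix.mul_nonsing_inv A hU
  have hiA : A⁻¹ * A = 1 := Matrix.nonsing_inv_mul A hU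
  have hgood := R304.good_limDens (B := 0) PosSemidef.zero hA.closed hA.int hA.ha hA.dec
  have hZ := hgood.mass_pos
  have hpos : ∀ F : (Fin n → ℝ) → ℝ, LipschitzWith 1 F → (∀ x, 0 ≤ F x) → (∀ x, |F x| ≤ 1) →
      Ex Q (fun z => F (A *ᵥ tau tt O z + m)) = 0 → ∀ z : E n, F (A *ᵥ tau tt O z + m) = 0 := by
    intro F hF h0 h1 h2 z
    by_contra hne
    have hgr : Gr (fun z => F (A *ᵥ tau tt O z + m)) := by
      refine Gr.of_bound (B := 1) ?_ fun x => h1 _
      refine hF.continuous.comp ?_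
      exact ((Continuous.matrix_mulVec continuous_const (cont_tau hT O)).add continuous_const)
    have := S332.Ex_pos hgr (fun z => h0 _) (lt_of_le_of_ne (h0 _) (Ne.symm hne))
    exact this.ne' h2
  -- the candidate
  set A' : Matrix (Fin n) (Fin n) ℝ := A⁻¹ with hA'
  set v : Fin n → ℝ := fun i => 1 - (A' *ᵥ m) i with hv
  have key : ∀ (y : Fin n → ℝ) (i : Fin n), (A' *ᵥ (A *ᵥ y + m) + v) i = y i + 1 := by
    intro y i
    have e1 : A' *ᵥ (A *ᵥ y) = y := by
      rw [mulVec_mulVec, hiA, one_mulVec]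
    rw [mulVec_add, e1]
    simp only [Pi.add_apply, hv]
    ring
  have hsurj : ∀ x : Fin n → ℝ, ∃ y, A *ᵥ y + m = x := fun x => ⟨A⁻¹ *ᵥ (x - m), by
    rw [mulVec_mulVec, hAi, one_mulVec, sub_add_cancel]⟩
  have hdetA' : A'.det ≠ 0 := by
    intro h
    have := congrArg Matrix.det hAi
    rw [det_mul, h, mul_zero, det_one] at this
    norm_num at this
  refine ⟨A', v, hdetA', Subset.antisymm ?_ ?_⟩
  · -- C ⊆ D'
    set D' : Set (Fin n → ℝ) := {x | ∀ i, 0 ≤ (A' *ᵥ x + v) i} with hD'
    have hDc : IsClosed D' := by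
      have : D' = ⋂ i, {x | 0 ≤ (A' *ᵥ x + v) i} := by
        ext x
        simp [hD']
      rw [this]
      refine isClosed_iInter fun i => isClosed_le continuous_const ?_
      exact (continuous_apply i).comp
        ((Continuous.matrix_mulVec continuous_const continuous_id).add continuous_const)
    have hin : ∀ z : E n, A *ᵥ tau tt O z + m ∈ D' := by
      intro z i
      rw [key]
      have := tau_gt (O := O) hT z i
      linarith
    have hDne : D'.Nonempty := ⟨_, hin 0⟩
    have h1 := h (td D') (td_lip D') (td_le D')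
    have h2 : (fun z : E n => td D' (A *ᵥ tau tt O z + m)) = fun _ => 0 := by
      funext z
      exact (td_eq_zero hDc hDne).2 (hin z)
    rw [h2] at h1
    have h3 : Ex Q (fun _ : E n => (0 : ℝ)) = 0 := by
      simp [Ex]
    rw [h3] at h1
    unfold R304.Ef at h1
    rw [div_eq_zero_iff, or_iff_left hZ.ne'] at h1
    have hpg : R304.PolyGrowth (td D') :=
      ⟨(td_lip D').continuous.aestronglyMeasurable, 1, 0, fun x => by
        rw [pow_zero, mul_one]; exact td_le D' x⟩
    have h4 := (integral_eq_zero_iff_of_nonneg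
      (fun x => mul_nonneg (td_nonneg D' x) (hgood.nn x)) (hgood.int hpg)).1 h1
    -- on the interior
    have h5 : ∀ x ∈ interior C, td D' x = 0 := by
      by_contra hcon
      push Not at hcon
      obtain ⟨x0, hx0, hne⟩ := hcon
      have hopen : IsOpen (interior C ∩ {x | td D' x ≠ 0}) :=
        isOpen_interior.inter (isOpen_ne_fun (td_lip D').continuous continuous_const)
      have hm := hopen.measure_pos volume ⟨x0, hx0, hne⟩
      refine hm.ne' ?_
      refine measure_mono_null (fun x hx => ?_) h4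
      obtain ⟨hx1, hx2⟩ := hx
      simp only [mem_compl_iff, mem_ofPred_eq, Pi.zero_apply]
      have h6 : R304.limDens 0 c C x = R304.tilt 0 c x := by
        unfold R304.limDens
        rw [indicator_of_mem (interior_subset hx1)]
      rw [h6]
      exact mul_ne_zero hx2 (R304.tilt_pos 0 c x).ne'
    intro x hx
    have hcl : x ∈ closure (interior C) := by
      rw [hA.convex.closure_interior_eq_closure_of_nonempty_interior hA.int]
      exact subset_closure hx
    have h7 : closure (interior C) ⊆ D' :=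
      closure_minimal (fun y hy => (td_eq_zero hDc hDne).1 (h5 y hy)) hDc
    exact h7 hcl
  · -- D' ⊆ C
    have hCne : C.Nonempty := hA.int.mono interior_subset
    have h1 := h (td C) (td_lip C) (td_le C)
    have h2 : R304.Ef (R304.limDens 0 c C) (td C) = 0 := by
      unfold R304.Ef
      have : (fun x => td C x * R304.limDens 0 c C x) = fun _ => 0 := by
        funext x
        by_cases hx : x ∈ C
        · rw [(td_eq_zero hA.closed hCne).2 hx, zero_mul]
        · unfold R304.limDens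
          rw [indicator_of_notMem hx, mul_zero]
      rw [this]
      simp
    rw [h2] at h1
    have h3 := hpos (td C) (td_lip C) (td_nonneg C) (td_le C) h1.symm
    have h4 : ∀ z : E n, A *ᵥ tau tt O z + m ∈ C := fun z =>
      (td_eq_zero hA.closed hCne).1 (h3 z)
    intro x hx
    obtain ⟨y, rfl⟩ := hsurj x
    have hy : ∀ i, -1 ≤ y i := by
      intro i
      have := hx i
      rw [key] at this
      linarith
    have h5 : ∀ s ∈ Ico (0 : ℝ) 1, A *ᵥ (s • y) + m ∈ C := by
      intro s hs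
      obtain ⟨z, hz⟩ := range_tau (tt := tt) hT hO (y := s • y) (fun j => by
        rw [Pi.smul_apply, smul_eq_mul]
        have h6 := hy j
        nlinarith [hs.1, hs.2])
      rw [← hz]
      exact h4 z
    have h6 : Tendsto (fun s : ℝ => A *ᵥ (s • y) + m) (𝓝[<] 1) (𝓝 (A *ᵥ y + m)) := by
      have h7 : Continuous (fun s : ℝ => A *ᵥ (s • y) + m) := by
        have h8 : Continuous (fun s : ℝ => s • y) := by fun_prop
        exact (Continuous.matrix_mulVec continuous_const h8).add continuous_const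
      have h8 := (h7.tendsto 1).mono_left (nhdsWithin_le_nhds (s := Iio 1))
      simpa using h8
    refine hA.closed.mem_of_tendsto h6 ?_
    have h9 : Ico (0 : ℝ) 1 ∈ 𝓝[<] (1 : ℝ) := Ico_mem_nhdsLT one_pos
    filter_upwards [h9] with s hs using h5 s hs

/-! ### the function `t` -/

section

open Vale.Agent.P254.SP

variable (P : F1)

theorem gdens_int : Integrable fun x : ℝ => Real.exp (-(x ^ 2 / 2) - Real.log (2 * Real.pi) / 2) := by
  have h := (integrable_exp_neg_mul_sq (b := 1 / 2) (by norm_num)).const_mul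
    (Real.exp (-(Real.log (2 * Real.pi) / 2)))
  refine h.congr (ae_of_all _ fun x => ?_)
  simp only
  rw [← Real.exp_add]
  congr 1
  ring

theorem gdens_one : ∫ x : ℝ, Real.exp (-(x ^ 2 / 2) - Real.log (2 * Real.pi) / 2) = 1 := by
  have h : ∀ x : ℝ, Real.exp (-(x ^ 2 / 2) - Real.log (2 * Real.pi) / 2) =
      Real.exp (-(Real.log (2 * Real.pi) / 2)) * Real.exp (-(1 / 2) * x ^ 2) := by
    intro x
    rw [← Real.exp_add]
    congr 1
    ring
  simp_rw [h]
  rw [integral_const_mul, integral_gaussian]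
  have h2 : Real.pi / (1 / 2) = 2 * Real.pi := by ring
  rw [h2, Real.sqrt_eq_rpow, Real.rpow_def_of_pos (by positivity), ← Real.exp_add]
  have h3 : -(Real.log (2 * Real.pi) / 2) + Real.log (2 * Real.pi) * (1 / 2) = 0 := by ring
  rw [h3, Real.exp_zero]

theorem exp_neg_t (a b : ℝ) : ∫ x in a..b, Real.exp (-(x ^ 2 / 2) - Real.log (2 * Real.pi) / 2) =
    Real.exp (-P.t a) - Real.exp (-P.t b) := by
  have h1 : ∀ x, HasDerivAt (fun x => -Real.exp (-P.t x))
      (Real.exp (-(x ^ 2 / 2) - Real.log (2 * Real.pi) / 2)) x := by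
    intro x
    have h2 := ((P.ht x).neg.exp).neg
    have h3 : -(Real.exp (-P.t x) * -P.L x) =
        Real.exp (-(x ^ 2 / 2) - Real.log (2 * Real.pi) / 2) := by
      have h4 : P.L x = Real.exp (Real.log (P.L x)) := (Real.exp_log (P.L_pos x)).symm
      rw [mul_neg, neg_neg, h4, P.log_L, ← Real.exp_add]
      congr 1
      ring
    rw [← h3]
    exact h2
  rw [intervalIntegral.integral_eq_sub_of_hasDerivAt (fun x _ => h1 x)
    (by
      refine Continuous.intervalIntegrable ?_ _ _
      fun_prop)]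
  ring

theorem t_cont : Continuous P.t := continuous_iff_continuousAt.2 fun x => (P.ht x).continuousAt

theorem t_onto {y : ℝ} (hy : 0 < y) : ∃ x, P.t x = y := by
  have h0 : 0 < Real.exp (-y) := Real.exp_pos _
  have h1 : Real.exp (-y) < 1 := by
    rw [Real.exp_lt_one_iff]; linarith
  have h2 : Tendsto (fun k : ℕ => ∫ x in (-(k : ℝ))..(k : ℝ),
      Real.exp (-(x ^ 2 / 2) - Real.log (2 * Real.pi) / 2)) atTop (𝓝 1) := by
    have := intervalIntegral_tendsto_integral gdens_int
      (tendsto_neg_atTop_atBot.comp (tendsto_natCast_atTop_atTop (R := ℝ)))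
      (tendsto_natCast_atTop_atTop (R := ℝ))
    rw [gdens_one] at this
    exact this
  have h3 : max (Real.exp (-y)) (1 - Real.exp (-y)) < 1 := max_lt h1 (by linarith)
  obtain ⟨k, hk⟩ := (h2.eventually_const_lt h3).exists
  rw [exp_neg_t P] at hk
  have h4 := (le_max_left _ _).trans_lt hk
  have h5 := (le_max_right _ _).trans_lt hk
  have h6 : Real.exp (-P.t (-(k : ℝ))) < 1 := by
    rw [Real.exp_lt_one_iff]
    have := P.t_pos (-(k : ℝ))
    linarith
  have h7 : P.t (-(k : ℝ)) < y := by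
    have : Real.exp (-y) < Real.exp (-P.t (-(k : ℝ))) := by
      have := Real.exp_pos (-P.t (k : ℝ))
      linarith
    have := Real.exp_lt_exp.1 this
    linarith
  have h8 : y < P.t (k : ℝ) := by
    have : Real.exp (-P.t (k : ℝ)) < Real.exp (-y) := by linarith
    have := Real.exp_lt_exp.1 this
    linarith
  have h9 : -(k : ℝ) ≤ k := by
    have : (0 : ℝ) ≤ k := Nat.cast_nonneg k
    linarith
  obtain ⟨x, -, hx⟩ := intermediate_value_Icc h9 (t_cont P).continuousOn ⟨h7.le, h8.le⟩
  exact ⟨x, hx⟩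

theorem r_growth (x : ℝ) : |P.r x - P.r 0| ≤ 1 / 2 * |x| := by
  have h := Convex.norm_image_sub_le_of_norm_hasDerivWithin_le (f := P.r) (f' := P.r')
    (s := Set.univ) (x := 0) (y := x) (C := 1 / 2) (fun y _ => (P.hr y).hasDerivWithinAt)
    (fun y _ => by
      rw [Real.norm_eq_abs, abs_of_pos (P.r'_pos y)]
      exact (P.r'_lt y).le) convex_univ (mem_univ _) (mem_univ _)
  simpa [Real.norm_eq_abs] using h

theorem tf_of : TF P.t where
  cont := t_cont P
  pos := P.t_pos
  onto := fun y hy => t_onto P hy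
  gr := by
    refine ⟨|P.r 0| + 2, fun x => ?_⟩
    have h1 := P.model1 x
    have h2 := r_growth P x
    have h3 : P.t x = 1 + x * P.r 0 + x * (P.r x - P.r 0) - P.r' x := by linarith
    rw [h3]
    have h4 : |x| ≤ (1 + x ^ 2) / 2 := by
      have := sq_nonneg (|x| - 1)
      nlinarith [sq_abs x]
    have h5 : |x * P.r 0| ≤ |P.r 0| * (1 + x ^ 2) := by
      rw [abs_mul]
      have := abs_nonneg (P.r 0)
      nlinarith [sq_nonneg x, abs_nonneg x]
    have h6 : |x * (P.r x - P.r 0)| ≤ 1 / 2 * x ^ 2 := by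
      rw [abs_mul]
      calc |x| * |P.r x - P.r 0| ≤ |x| * (1 / 2 * |x|) :=
            mul_le_mul_of_nonneg_left h2 (abs_nonneg x)
        _ = 1 / 2 * x ^ 2 := by rw [← sq_abs x]; ring
    have h7 := P.r'_pos x
    have h8 := P.r'_lt x
    have h9 := abs_le.1 h5
    have h10 := abs_le.1 h6
    rw [abs_le]
    constructor <;> nlinarith [sq_nonneg x]

end

end Vale.Agent.P254.Eq351
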